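import Vale.Agent.P160.Count

namespace Vale.Agent.P160

open Finset

/-- Second Bonferroni inequality, in a form without division. -/
theorem bonferroni {α Ω : Type} [DecidableEq α] [Fintype Ω] [DecidableEq Ω]
    (I : Finset α) (E : α → Finset Ω) :
    2 * ∑ a ∈ I, (E a).card ≤
      2 * (I.biUnion E).card + ∑ a ∈ I, ∑ b ∈ I.erase a, (E a ∩ E b).card := by
  have hc : ∀ F : Finset Ω, F.card = ∑ ω : Ω, if ω ∈ F then 1 else 0 := by
    intro F; simp
  simp_rw [hc]
  rw [Finset.sum_comm]
  have h2 : ∑ a ∈ I, ∑ b ∈ I.erase a, ∑ ω : Ω, (if ω ∈ E a ∩ E b then 1 else 0)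
      = ∑ ω : Ω, ∑ a ∈ I, ∑ b ∈ I.erase a, (if ω ∈ E a ∩ E b then 1 else 0) := by
    rw [Finset.sum_comm]
    refine Finset.sum_congr rfl fun a _ => ?_
    rw [Finset.sum_comm]
  rw [h2, Finset.mul_sum, Finset.mul_sum, ← Finset.sum_add_distrib]
  refine Finset.sum_le_sum fun ω _ => ?_
  set J := I.filter (fun a => ω ∈ E a) with hJ
  have e1 : ∑ a ∈ I, (if ω ∈ E a then 1 else 0) = J.card := by
    rw [hJ, Finset.card_filter]
  have e2 : ∑ a ∈ I, ∑ b ∈ I.erase a, (if ω ∈ E a ∩ E b then 1 else 0)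
      = J.card * (J.card - 1) := by
    have : ∀ a ∈ I, ∑ b ∈ I.erase a, (if ω ∈ E a ∩ E b then 1 else 0)
        = if ω ∈ E a then (J.card - 1) else 0 := by
      intro a ha
      by_cases hω : ω ∈ E a
      · simp only [mem_inter, hω, true_and, if_true]
        rw [← Finset.card_filter]
        have : (I.erase a).filter (fun b => ω ∈ E b) = J.erase a := by
          rw [hJ, Finset.filter_erase]
        rw [this, Finset.card_erase_of_mem]
        rw [hJ]; exact mem_filter.2 ⟨ha, hω⟩
      · simp [hω]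
    rw [Finset.sum_congr rfl this, ← Finset.sum_filter, ← hJ, Finset.sum_const, smul_eq_mul]
  have e3 : (if ω ∈ I.biUnion E then 1 else 0) = if 0 < J.card then 1 else 0 := by
    congr 1
    rw [eq_iff_iff, Finset.card_pos, mem_biUnion]
    constructor
    · rintro ⟨a, ha, hω⟩; exact ⟨a, mem_filter.2 ⟨ha, hω⟩⟩
    · rintro ⟨a, ha⟩; exact ⟨a, (mem_filter.1 ha).1, (mem_filter.1 ha).2⟩
  rw [e1, e2, e3]
  rcases Nat.lt_or_ge J.card 3 with h | h
  · interval_cases J.card <;> simp
  · have : 0 < J.card := by omega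
    rw [if_pos this]
    obtain ⟨m, hm⟩ : ∃ m, J.card = m + 3 := ⟨J.card - 3, by omega⟩
    rw [hm]
    have : m + 3 - 1 = m + 2 := by omega
    rw [this]
    nlinarith

variable {ι : Type} [Fintype ι] [DecidableEq ι]

theorem sgn_xor_true (b : Bool) : sgn (xor b true) = - sgn b := by
  cases b <;> simp [sgn]

theorem sgn_xor_false (b : Bool) : sgn (xor b false) = sgn b := by
  cases b <;> simp [sgn]

/-- Two proportional rows force a zero determinant. -/
theorem det_eq_zero_of_mem_fib {i j : ι} (hij : i ≠ j) (c : Bool) {ω : Sym2 ι → Bool}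
    (hω : ω ∈ fib i j (fun _ => c)) : (symMat ω).det = 0 := by
  have h := (mem_filter.1 hω).2
  cases c with
  | false =>
    apply Matrix.det_zero_of_row_eq hij.symm
    funext t
    simp only [symMat, Matrix.of_apply]
    rw [h t, sgn_xor_false]
  | true =>
    rw [← Matrix.det_updateRow_add_smul_self (symMat ω) hij.symm 1]
    apply Matrix.det_eq_zero_of_row_eq_zero j
    intro t
    simp only [Matrix.updateRow_self, Pi.add_apply, Pi.smul_apply, symMat, Matrix.of_apply,
      smul_eq_mul, one_mul]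
    rw [h t, sgn_xor_true]
    ring

theorem fib_inter_eq_empty {i j : ι} {c c' : Bool} (hc : c ≠ c') :
    fib i j (fun _ => c) ∩ fib i j (fun _ => c') = ∅ := by
  rw [Finset.eq_empty_iff_forall_notMem]
  intro ω hω
  rw [mem_inter] at hω
  have h1 := (mem_filter.1 hω.1).2 i
  have h2 := (mem_filter.1 hω.2).2 i
  rw [h1] at h2
  apply hc
  revert h2
  cases ω s(i, i) <;> cases c <;> cases c' <;> simp

end Vale.Agent.P160
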