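import Vale.Agent.P160.Defs

namespace Vale.Agent.P160

open Finset

variable {ι : Type} [Fintype ι] [DecidableEq ι]

/-- A family of assignments whose members are determined by their values on the pairs inside `s`
has at most `2 ^ C(|s|+1, 2)` members. -/
theorem card_le_of_determined (F : Finset (Sym2 ι → Bool)) (s : Finset ι)
    (h : ∀ ω ∈ F, ∀ ω' ∈ F, (∀ u ∈ s, ∀ v ∈ s, ω s(u, v) = ω' s(u, v)) → ω = ω') :
    F.card ≤ 2 ^ (s.card + 1).choose 2 := by
  have h1 : F.card ≤ Fintype.card (s.sym2 → Bool) := by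
    rw [← Finset.card_univ]
    refine Finset.card_le_card_of_injOn (fun ω => fun z : s.sym2 => ω z.1)
      (fun _ _ => mem_coe.2 (mem_univ _)) ?_
    intro ω hω ω' hω' heq
    apply h ω hω ω' hω'
    intro u hu v hv
    exact congrFun heq ⟨s(u, v), by simp [hu, hv]⟩
  rw [Fintype.card_fun, Fintype.card_bool, Fintype.card_coe, Finset.card_sym2] at h1
  exact h1

/-- Elimination of one index: if row `x` is determined by row `x'`, agreement on pairs inside
`s.erase x` propagates to pairs inside `s`. -/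
theorem elim_step {ω ω' : Sym2 ι → Bool} {x x' : ι} (hx : x' ≠ x) (d : ι → Bool) (s : Finset ι)
    (hx's : x' ∈ s)
    (h1 : ∀ t, ω s(x, t) = xor (ω s(x', t)) (d t))
    (h2 : ∀ t, ω' s(x, t) = xor (ω' s(x', t)) (d t))
    (hag : ∀ u ∈ s.erase x, ∀ v ∈ s.erase x, ω s(u, v) = ω' s(u, v)) :
    ∀ u ∈ s, ∀ v ∈ s, ω s(u, v) = ω' s(u, v) := by
  have hx'e : x' ∈ s.erase x := mem_erase.2 ⟨hx, hx's⟩
  -- pairs `(x, v)` with `v ≠ x`
  have key : ∀ v ∈ s, v ≠ x → ω s(x, v) = ω' s(x, v) := by
    intro v hv hvx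
    rw [h1, h2, hag x' hx'e v (mem_erase.2 ⟨hvx, hv⟩)]
  have keyxx : ω s(x, x) = ω' s(x, x) := by
    rw [h1, h2, Sym2.eq_swap (a := x') (b := x), key x' hx's hx]
  intro u hu v hv
  by_cases hux : u = x
  · subst hux
    by_cases hvx : v = u
    · subst hvx; exact keyxx
    · exact key v hv hvx
  · by_cases hvx : v = x
    · subst hvx
      rw [Sym2.eq_swap (a := u) (b := v)]
      exact key u hu hux
    · exact hag u (mem_erase.2 ⟨hux, hu⟩) v (mem_erase.2 ⟨hvx, hv⟩)

/-- The assignments whose row `j` is row `i` twisted by the pattern `d`. -/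
def fib (i j : ι) (d : ι → Bool) : Finset (Sym2 ι → Bool) :=
  univ.filter fun ω => ∀ t, ω s(j, t) = xor (ω s(i, t)) (d t)

theorem ext_of_agree {ω ω' : Sym2 ι → Bool}
    (h : ∀ u ∈ (univ : Finset ι), ∀ v ∈ (univ : Finset ι), ω s(u, v) = ω' s(u, v)) : ω = ω' := by
  funext z
  induction z using Sym2.ind with
  | _ u v => exact h u (mem_univ _) v (mem_univ _)

theorem card_fib_le {i j : ι} (hij : i ≠ j) (d : ι → Bool) :
    (fib i j d).card ≤ 2 ^ (Fintype.card ι).choose 2 := by
  have h := card_le_of_determined (fib i j d) (univ.erase j) (by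
    intro ω hω ω' hω' hag
    apply ext_of_agree
    exact elim_step hij d univ (mem_univ _) (mem_filter.1 hω).2 (mem_filter.1 hω').2 hag)
  have hc : (univ.erase j : Finset ι).card + 1 = Fintype.card ι := by
    rw [card_erase_of_mem (mem_univ _), card_univ]
    have : 0 < Fintype.card ι := Fintype.card_pos_iff.2 ⟨i⟩
    omega
  rwa [hc] at h

theorem card_all : Fintype.card (Sym2 ι → Bool) = 2 ^ (Fintype.card ι + 1).choose 2 := by
  simp [Sym2.card]

theorem card_fib {i j : ι} (hij : i ≠ j) (d : ι → Bool) :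
    (fib i j d).card = 2 ^ (Fintype.card ι).choose 2 := by
  have hsum : (univ : Finset (Sym2 ι → Bool)).card
      = ∑ d : ι → Bool, (fib i j d).card := by
    rw [Finset.card_eq_sum_card_fiberwise
      (f := fun ω : Sym2 ι → Bool => fun t => xor (ω s(j, t)) (ω s(i, t)))
      (t := (univ : Finset (ι → Bool))) (fun _ _ => mem_coe.2 (mem_univ _))]
    refine Finset.sum_congr rfl fun d _ => ?_
    congr 1
    ext ω
    simp only [fib, mem_filter, mem_univ, true_and]
    constructor
    · intro h t
      have := congrFun h t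
      rw [← this]
      cases ω s(j, t) <;> cases ω s(i, t) <;> rfl
    · intro h
      funext t
      rw [h t]
      cases ω s(i, t) <;> cases d t <;> rfl
  have htot : ∑ d : ι → Bool, (fib i j d).card
      = ∑ _d : ι → Bool, 2 ^ (Fintype.card ι).choose 2 := by
    rw [← hsum, card_univ, card_all, sum_const, card_univ]
    simp only [Fintype.card_fun, Fintype.card_bool, smul_eq_mul]
    rw [← pow_add]
    congr 1
    rw [Nat.choose_succ_succ' (Fintype.card ι) 1]
    simp
  exact (Finset.sum_eq_sum_iff_of_le (fun d _ => card_fib_le hij d)).1 htot d (mem_univ _)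

theorem fib_const_symm (i j : ι) (c : Bool) : fib i j (fun _ => c) = fib j i (fun _ => c) := by
  ext ω
  simp only [fib, mem_filter, mem_univ, true_and]
  constructor <;>
  · intro h t
    rw [h t]
    cases ω s(_, t) <;> cases c <;> rfl

theorem card_inter_le_aux {i j k l : ι} (hij : i ≠ j) (hkl : k ≠ l) (hli : l ≠ i) (hlj : l ≠ j)
    (d d' : ι → Bool) :
    (fib i j d ∩ fib k l d').card ≤ 2 ^ (Fintype.card ι - 1).choose 2 := by
  have h := card_le_of_determined (fib i j d ∩ fib k l d') ((univ.erase l).erase j) (by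
    intro ω hω ω' hω' hag
    rw [mem_inter] at hω hω'
    apply ext_of_agree
    apply elim_step hkl d' univ (mem_univ _) (mem_filter.1 hω.2).2 (mem_filter.1 hω'.2).2
    exact elim_step hij d (univ.erase l) (mem_erase.2 ⟨hli.symm, mem_univ _⟩)
      (mem_filter.1 hω.1).2 (mem_filter.1 hω'.1).2 hag)
  have hc : ((univ.erase l).erase j : Finset ι).card + 1 = Fintype.card ι - 1 := by
    rw [card_erase_of_mem (mem_erase.2 ⟨hlj.symm, mem_univ _⟩), card_erase_of_mem (mem_univ _),
      card_univ]
    have : 1 < Fintype.card ι := Fintype.one_lt_card_iff.2 ⟨i, j, hij⟩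
    omega
  rwa [hc] at h

end Vale.Agent.P160
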