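import Mathlib

/-!
# Random symmetric sign matrices (problem P160)

The sample space is the set of all assignments of a Boolean to every unordered pair `{i, j}`
(with `i = j` allowed) of indices in `Fin n`; the uniform measure on it makes the entries on and
above the diagonal independent and uniform on `{-1, 1}`.
-/

namespace Vale.Agent.P160

/-- The sign `+1` or `-1` coded by a Boolean. -/
def sgn (b : Bool) : ℤ := if b then 1 else -1

/-- The symmetric `±1` matrix with entry `sgn (ω {i, j})` at position `(i, j)`. -/
def symMat {ι : Type} (ω : Sym2 ι → Bool) : Matrix ι ι ℤ :=
  Matrix.of fun i j => sgn (ω s(i, j))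

/-- `q n`: the probability that the random symmetric `n × n` sign matrix is singular, i.e. the
number of sign assignments with zero determinant divided by the number of all assignments. -/
noncomputable def q (n : ℕ) : ℝ :=
  ((Finset.univ.filter fun ω : Sym2 (Fin n) → Bool => (symMat ω).det = 0).card : ℝ) /
    (Fintype.card (Sym2 (Fin n) → Bool) : ℝ)

end Vale.Agent.P160
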