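import Vale.Agent.P160.Bonferroni

namespace Vale.Agent.P160

open Finset

/-- index set of the events: pairs `i < j` together with a sign -/
def idx (n : ℕ) : Finset ((Fin n × Fin n) × Bool) :=
  (univ.filter fun p : Fin n × Fin n => p.1 < p.2) ×ˢ univ

/-- the event attached to an index -/
def ev (n : ℕ) (a : (Fin n × Fin n) × Bool) : Finset (Sym2 (Fin n) → Bool) :=
  fib a.1.1 a.1.2 (fun _ => a.2)

theorem card_idx (n : ℕ) : (idx n).card = n * (n - 1) := by
  rw [idx, card_product, Fintype.card_product_filter_lt, Fintype.card_fin, card_univ,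
    Fintype.card_bool, Nat.choose_two_right]
  exact Nat.div_mul_cancel (Nat.even_mul_pred_self n).two_dvd

theorem card_ev {n : ℕ} {a : (Fin n × Fin n) × Bool} (ha : a ∈ idx n) :
    (ev n a).card = 2 ^ n.choose 2 := by
  have h : a.1.1 < a.1.2 := (mem_filter.1 (mem_product.1 ha).1).2
  have := card_fib (ne_of_lt h) (fun _ => a.2)
  rwa [Fintype.card_fin] at this

theorem card_ev_inter_le {n : ℕ} {a b : (Fin n × Fin n) × Bool} (ha : a ∈ idx n) (hb : b ∈ idx n)
    (hab : a ≠ b) : (ev n a ∩ ev n b).card ≤ 2 ^ (n - 1).choose 2 := by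
  obtain ⟨⟨i, j⟩, c⟩ := a
  obtain ⟨⟨k, l⟩, c'⟩ := b
  have hij : i < j := (mem_filter.1 (mem_product.1 ha).1).2
  have hkl : k < l := (mem_filter.1 (mem_product.1 hb).1).2
  simp only [ev]
  by_cases hl : l ≠ i ∧ l ≠ j
  · have := card_inter_le_aux (ne_of_lt hij) (ne_of_lt hkl) hl.1 hl.2 (fun _ => c) (fun _ => c')
    rwa [Fintype.card_fin] at this
  · by_cases hk : k ≠ i ∧ k ≠ j
    · rw [fib_const_symm k l c']
      have := card_inter_le_aux (ne_of_lt hij) (ne_of_gt hkl) hk.1 hk.2 (fun _ => c) (fun _ => c')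
      rwa [Fintype.card_fin] at this
    · -- then `(k, l) = (i, j)`
      have hki : k = i ∧ l = j := by
        have h1 : l = i ∨ l = j := by
          by_contra h; push Not at h; exact hl h
        have h2 : k = i ∨ k = j := by
          by_contra h; push Not at h; exact hk h
        rcases h1 with h1 | h1 <;> rcases h2 with h2 | h2
        · subst h1 h2; exact absurd hkl (lt_irrefl _)
        · subst h1 h2; exact absurd (hkl.trans hij) (lt_irrefl _)
        · exact ⟨h2, h1⟩
        · subst h1 h2; exact absurd hkl (lt_irrefl _)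
      obtain ⟨rfl, rfl⟩ := hki
      have hc : c ≠ c' := by
        intro h; apply hab; rw [h]
      rw [fib_inter_eq_empty hc]
      simp

/-- The counting form of the lower bound. -/
theorem count_lower (n : ℕ) :
    2 * (n * (n - 1) * 2 ^ n.choose 2) ≤
      2 * (univ.filter fun ω : Sym2 (Fin n) → Bool => (symMat ω).det = 0).card
        + n * (n - 1) * (n * (n - 1)) * 2 ^ (n - 1).choose 2 := by
  have hB := bonferroni (idx n) (ev n)
  have h1 : ∑ a ∈ idx n, (ev n a).card = n * (n - 1) * 2 ^ n.choose 2 := by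
    rw [Finset.sum_congr rfl (fun a ha => card_ev ha), sum_const, card_idx, smul_eq_mul]
  have h2 : ((idx n).biUnion (ev n)).card
      ≤ (univ.filter fun ω : Sym2 (Fin n) → Bool => (symMat ω).det = 0).card := by
    apply Finset.card_le_card
    intro ω hω
    obtain ⟨a, ha, hωa⟩ := mem_biUnion.1 hω
    have h : a.1.1 < a.1.2 := (mem_filter.1 (mem_product.1 ha).1).2
    exact mem_filter.2 ⟨mem_univ _, det_eq_zero_of_mem_fib (ne_of_lt h) a.2 hωa⟩
  have h3 : ∑ a ∈ idx n, ∑ b ∈ (idx n).erase a, (ev n a ∩ ev n b).card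
      ≤ n * (n - 1) * (n * (n - 1)) * 2 ^ (n - 1).choose 2 := by
    calc ∑ a ∈ idx n, ∑ b ∈ (idx n).erase a, (ev n a ∩ ev n b).card
        ≤ ∑ a ∈ idx n, ∑ _b ∈ idx n, 2 ^ (n - 1).choose 2 := by
          refine Finset.sum_le_sum fun a ha => ?_
          calc ∑ b ∈ (idx n).erase a, (ev n a ∩ ev n b).card
              ≤ ∑ _b ∈ (idx n).erase a, 2 ^ (n - 1).choose 2 := by
                refine Finset.sum_le_sum fun b hb => ?_
                exact card_ev_inter_le ha (mem_of_mem_erase hb) (ne_of_mem_erase hb).symm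
            _ ≤ ∑ _b ∈ idx n, 2 ^ (n - 1).choose 2 :=
                Finset.sum_le_sum_of_subset (erase_subset _ _)
      _ = n * (n - 1) * (n * (n - 1)) * 2 ^ (n - 1).choose 2 := by
          simp only [sum_const, card_idx, smul_eq_mul]
          ring
  rw [h1] at hB
  omega

end Vale.Agent.P160
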